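import Mathlib

/-!
# P141, line (A), caps of the slot: the sum over the generations

`κ g = ρ ^ A 2 ^ g` the cap of the generation `g`, `E g` its energy number, `E (g + 1) ≤ C0 ρ² / κ⁶`,
`Lg g` its number of levels, at most `B (1 + log ρ + g)`.

* `gen_sum` : `∑ Lg ^ p E ^ θ ≤ C ρ ^ η (E 0 ^ θ + ρ ^ (-(6 A - 2) θ))`;
* `gen_price` : the same at `ρ = r / t`, `E 0 ≤ Lc t ^ (-c) (t / r) ^ e0`.
-/

namespace Vale.Agent.P141.H582

open Finset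

theorem one_add_log_pow (p : ℕ) {η : ℝ} (hη : 0 < η) :
    ∃ C : ℝ, 0 ≤ C ∧ ∀ ρ : ℝ, 1 ≤ ρ → (1 + Real.log ρ) ^ p ≤ C * ρ ^ η := by
  set ε : ℝ := η / (p + 1) with hε
  have hε0 : 0 < ε := by positivity
  refine ⟨(1 + 1 / ε) ^ p, by positivity, fun ρ hρ => ?_⟩
  have hρ0 : 0 < ρ := by linarith
  have h1 : Real.log ρ ≤ ρ ^ ε / ε := Real.log_le_rpow_div hρ0.le hε0
  have h2 : 1 ≤ ρ ^ ε := Real.one_le_rpow hρ hε0.le
  have h3 : 1 + Real.log ρ ≤ (1 + 1 / ε) * ρ ^ ε := by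
    have : (1 + 1 / ε) * ρ ^ ε = ρ ^ ε + ρ ^ ε / ε := by ring
    rw [this]
    linarith
  have h0 : 0 ≤ 1 + Real.log ρ := by
    have := Real.log_nonneg hρ
    linarith
  calc (1 + Real.log ρ) ^ p ≤ ((1 + 1 / ε) * ρ ^ ε) ^ p := pow_le_pow_left₀ h0 h3 p
    _ = (1 + 1 / ε) ^ p * ρ ^ (ε * p) := by
      rw [mul_pow, ← Real.rpow_natCast (ρ ^ ε), ← Real.rpow_mul hρ0.le]
    _ ≤ (1 + 1 / ε) ^ p * ρ ^ η := by
      refine mul_le_mul_of_nonneg_left ?_ (by positivity)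
      refine Real.rpow_le_rpow_of_exponent_le hρ ?_
      rw [hε, div_mul_eq_mul_div, div_le_iff₀ (by positivity)]
      nlinarith

theorem geo_sum (p : ℕ) {q : ℝ} (hq : 0 ≤ q) (hq1 : q < 1) :
    ∃ C : ℝ, 0 ≤ C ∧ ∀ K : ℕ, ∑ g ∈ range K, ((g : ℝ) + 2) ^ p * q ^ g ≤ C := by
  rcases hq.eq_or_lt with h | h
  · subst h
    refine ⟨2 ^ p, by positivity, fun K => ?_⟩
    rcases K with _ | K
    · simp
    · rw [sum_range_succ']
      have : ∑ k ∈ range K, (((k + 1 : ℕ) : ℝ) + 2) ^ p * (0 : ℝ) ^ (k + 1) = 0 :=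
        sum_eq_zero fun k _ => by simp
      rw [this]
      simp
  · have h1 : Summable fun n : ℕ => (n : ℝ) ^ p * q ^ n :=
      summable_pow_mul_geometric_of_norm_lt_one p (by rwa [Real.norm_of_nonneg hq])
    have h2 : Summable fun n : ℕ => ((n + 2 : ℕ) : ℝ) ^ p * q ^ (n + 2) :=
      (summable_nat_add_iff 2).2 h1
    have h3 : Summable fun n : ℕ => ((n : ℝ) + 2) ^ p * q ^ n := by
      have h4 := h2.mul_left ((q ^ 2)⁻¹)
      refine h4.congr fun n => ?_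
      push_cast
      rw [pow_add]
      field_simp
    refine ⟨∑' n : ℕ, ((n : ℝ) + 2) ^ p * q ^ n, tsum_nonneg fun n => by positivity, fun K => ?_⟩
    exact h3.sum_le_tsum _ fun n _ => by positivity

/-- **The sum over the generations.** -/
theorem gen_sum (p : ℕ) {θ η A B C0 : ℝ} (hθ : 0 < θ) (hη : 0 < η) (_hA : 0 ≤ A) (hB : 0 ≤ B)
    (hC0 : 0 ≤ C0) : ∃ C : ℝ, 0 ≤ C ∧ ∀ ρ : ℝ, 1 ≤ ρ → ∀ E Lg : ℕ → ℝ, (∀ g, 0 ≤ E g) →
      (∀ g, 0 ≤ Lg g) → (∀ g, Lg g ≤ B * (1 + Real.log ρ + g)) →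
      (∀ g, E (g + 1) ≤ C0 * ρ ^ 2 / (ρ ^ A * 2 ^ g) ^ 6) → ∀ K : ℕ,
      ∑ g ∈ range (K + 1), Lg g ^ p * E g ^ θ ≤
        C * ρ ^ η * (E 0 ^ θ + ρ ^ (-((6 * A - 2) * θ))) := by
  obtain ⟨C1, hC1, H1⟩ := one_add_log_pow p hη
  set q : ℝ := (2 : ℝ) ^ (-(6 * θ)) with hq
  have hq0 : 0 ≤ q := by positivity
  have hq1 : q < 1 := Real.rpow_lt_one_of_one_lt_of_neg (by norm_num) (by linarith)
  obtain ⟨C2, hC2, H2⟩ := geo_sum p hq0 hq1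
  refine ⟨B ^ p * C1 * (1 + C0 ^ θ * C2), by positivity, fun ρ hρ E Lg hE hL hLg hEg K => ?_⟩
  have hρ0 : 0 < ρ := by linarith
  have hl := Real.log_nonneg hρ
  have hH := H1 ρ hρ
  have f0 : Lg 0 ^ p * E 0 ^ θ ≤ B ^ p * C1 * ρ ^ η * E 0 ^ θ := by
    have h1 : Lg 0 ^ p ≤ (B * (1 + Real.log ρ)) ^ p := by
      refine pow_le_pow_left₀ (hL 0) ?_ p
      have := hLg 0
      simpa using this
    rw [mul_pow] at h1
    have h2 := h1.trans (mul_le_mul_of_nonneg_left hH (by positivity : (0 : ℝ) ≤ B ^ p))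
    have h3 := mul_le_mul_of_nonneg_right h2 (Real.rpow_nonneg (hE 0) θ)
    refine h3.trans (le_of_eq ?_)
    ring
  have fg : ∀ g : ℕ, Lg (g + 1) ^ p * E (g + 1) ^ θ ≤
      B ^ p * C1 * ρ ^ η * (C0 ^ θ * ρ ^ (-((6 * A - 2) * θ))) * (((g : ℝ) + 2) ^ p * q ^ g) := by
    intro g
    have h1 : Lg (g + 1) ^ p ≤ (B * ((1 + Real.log ρ) * ((g : ℝ) + 2))) ^ p := by
      refine pow_le_pow_left₀ (hL _) ((hLg _).trans (mul_le_mul_of_nonneg_left ?_ hB)) p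
      push_cast
      have hg : (0 : ℝ) ≤ g := Nat.cast_nonneg g
      nlinarith
    rw [mul_pow, mul_pow] at h1
    have h2 : E (g + 1) ^ θ ≤ C0 ^ θ * ρ ^ (-((6 * A - 2) * θ)) * q ^ g := by
      refine (Real.rpow_le_rpow (hE _) (hEg g) hθ.le).trans (le_of_eq ?_)
      have e : C0 * ρ ^ 2 / (ρ ^ A * 2 ^ g) ^ 6 = C0 * (ρ ^ (-(6 * A - 2)) * (2 : ℝ) ^ (-(6 * g : ℝ))) := by
        rw [mul_pow, ← Real.rpow_natCast (ρ ^ A) 6, ← Real.rpow_mul hρ0.le,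
          ← Real.rpow_natCast ρ 2, ← Real.rpow_natCast (2 : ℝ) g,
          ← Real.rpow_natCast ((2 : ℝ) ^ (g : ℝ)) 6, ← Real.rpow_mul (by norm_num : (0 : ℝ) ≤ 2),
          Real.rpow_neg (by norm_num : (0 : ℝ) ≤ 2), show -(6 * A - 2) = (2 : ℝ) - A * 6 by ring,
          Real.rpow_sub hρ0]
        push_cast
        rw [show (g : ℝ) * 6 = 6 * g by ring]
        have a1 : (0 : ℝ) < ρ ^ (A * 6) := by positivity
        have a2 : (0 : ℝ) < (2 : ℝ) ^ (6 * (g : ℝ)) := by positivity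
        field_simp
      rw [e, Real.mul_rpow hC0 (by positivity), Real.mul_rpow (by positivity) (by positivity),
        ← Real.rpow_mul hρ0.le, ← Real.rpow_mul (by norm_num : (0 : ℝ) ≤ 2), hq,
        ← Real.rpow_natCast _ g, ← Real.rpow_mul (by norm_num : (0 : ℝ) ≤ 2)]
      rw [show -(6 * A - 2) * θ = -((6 * A - 2) * θ) by ring,
        show -(6 * (g : ℝ)) * θ = -(6 * θ) * g by ring]
      ring
    have h3 : B ^ p * ((1 + Real.log ρ) ^ p * ((g : ℝ) + 2) ^ p) ≤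
        B ^ p * (C1 * ρ ^ η * ((g : ℝ) + 2) ^ p) :=
      mul_le_mul_of_nonneg_left (mul_le_mul_of_nonneg_right hH (by positivity)) (by positivity)
    have h4 := mul_le_mul (h1.trans h3) h2 (Real.rpow_nonneg (hE _) θ) (by positivity)
    refine h4.trans (le_of_eq ?_)
    ring
  rw [sum_range_succ']
  have hs := sum_le_sum fun g (_ : g ∈ range K) => fg g
  rw [← mul_sum] at hs
  have h5 := mul_le_mul_of_nonneg_left (H2 K)
    (by positivity : (0 : ℝ) ≤ B ^ p * C1 * ρ ^ η * (C0 ^ θ * ρ ^ (-((6 * A - 2) * θ))))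
  have h6 : 0 ≤ B ^ p * C1 * ρ ^ η * (ρ ^ (-((6 * A - 2) * θ))) := by positivity
  have h7 : 0 ≤ B ^ p * C1 * ρ ^ η * (C0 ^ θ * C2 * E 0 ^ θ) := by
    have := Real.rpow_nonneg (hE 0) θ
    positivity
  calc _ ≤ B ^ p * C1 * ρ ^ η * (C0 ^ θ * ρ ^ (-((6 * A - 2) * θ))) * C2 +
        B ^ p * C1 * ρ ^ η * E 0 ^ θ := add_le_add (hs.trans h5) f0
    _ ≤ B ^ p * C1 * ρ ^ η * (C0 ^ θ * ρ ^ (-((6 * A - 2) * θ))) * C2 +
        B ^ p * C1 * ρ ^ η * E 0 ^ θ + (B ^ p * C1 * ρ ^ η * (ρ ^ (-((6 * A - 2) * θ))) +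
          B ^ p * C1 * ρ ^ η * (C0 ^ θ * C2 * E 0 ^ θ)) := by linarith
    _ = _ := by ring

/-- **The price of all the generations**, `ρ = r / t`. -/
theorem gen_price (p : ℕ) {θ e0 A B C0 Lc : ℝ} (hθ : 0 < θ) (he : 0 < e0) (he1 : e0 ≤ 1)
    (hA : 1 ≤ A) (hB : 0 ≤ B) (hC0 : 0 ≤ C0) (hLc : 0 ≤ Lc) :
    ∃ C : ℝ, 0 ≤ C ∧ ∀ c : ℝ, 0 ≤ c → c ≤ e0 / 4 → ∀ t : ℝ, 0 < t → t ≤ 1 → ∀ r : ℝ, 1 ≤ r →
      ∀ E Lg : ℕ → ℝ, (∀ g, 0 ≤ E g) → (∀ g, 0 ≤ Lg g) →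
      (∀ g, Lg g ≤ B * (1 + Real.log (r / t) + g)) →
      E 0 ≤ Lc * (t ^ (-c) * (t / r) ^ e0) →
      (∀ g, E (g + 1) ≤ C0 * (r / t) ^ 2 / ((r / t) ^ A * 2 ^ g) ^ 6) → ∀ K : ℕ,
      ∑ g ∈ range (K + 1), Lg g ^ p * E g ^ θ ≤
        C * (t ^ (e0 * θ / 2) * r ^ (-(e0 * θ / 2))) := by
  have hη : 0 < e0 * θ / 4 := by positivity
  obtain ⟨C, hC, H⟩ := gen_sum p hθ hη (by linarith : 0 ≤ A) hB hC0
  refine ⟨C * (Lc ^ θ + 1), by positivity, fun c hc hce t ht ht1 r hr E Lg hE hL hLg hE0 hEg K => ?_⟩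
  have hr0 : 0 < r := by linarith
  have hρ : 1 ≤ r / t := by
    rw [le_div_iff₀ ht]
    linarith
  refine (H (r / t) hρ E Lg hE hL hLg hEg K).trans ?_
  have hρe : ∀ y : ℝ, (r / t) ^ y = t ^ (-y) * r ^ y := fun y => by
    rw [Real.div_rpow hr0.le ht.le, Real.rpow_neg ht.le]
    field_simp
  have h0 : E 0 ^ θ ≤ Lc ^ θ * (t ^ (-(c * θ)) * (t ^ (e0 * θ) * r ^ (-(e0 * θ)))) := by
    refine (Real.rpow_le_rpow (hE 0) hE0 hθ.le).trans (le_of_eq ?_)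
    rw [Real.mul_rpow hLc (by positivity), Real.mul_rpow (by positivity) (by positivity),
      ← Real.rpow_mul ht.le, ← Real.rpow_mul (by positivity), Real.div_rpow ht.le hr0.le,
      Real.rpow_neg hr0.le, show -c * θ = -(c * θ) by ring]
    field_simp
  have m1 : (r / t) ^ (e0 * θ / 4) * E 0 ^ θ ≤ Lc ^ θ * (t ^ (e0 * θ / 2) * r ^ (-(e0 * θ / 2))) := by
    rw [hρe]
    refine (mul_le_mul_of_nonneg_left h0 (by positivity)).trans ?_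
    have e : t ^ (-(e0 * θ / 4)) * r ^ (e0 * θ / 4) *
        (Lc ^ θ * (t ^ (-(c * θ)) * (t ^ (e0 * θ) * r ^ (-(e0 * θ))))) =
        Lc ^ θ * ((t ^ (-(e0 * θ / 4)) * t ^ (-(c * θ)) * t ^ (e0 * θ)) *
          (r ^ (e0 * θ / 4) * r ^ (-(e0 * θ)))) := by ring
    rw [e, ← Real.rpow_add ht, ← Real.rpow_add ht, ← Real.rpow_add hr0]
    refine mul_le_mul_of_nonneg_left ?_ (by positivity)
    refine mul_le_mul ?_ ?_ (by positivity) (by positivity)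
    · refine Real.rpow_le_rpow_of_exponent_ge ht ht1 ?_
      nlinarith
    · refine Real.rpow_le_rpow_of_exponent_le hr ?_
      nlinarith
  have m2 : (r / t) ^ (e0 * θ / 4) * (r / t) ^ (-((6 * A - 2) * θ)) ≤
      t ^ (e0 * θ / 2) * r ^ (-(e0 * θ / 2)) := by
    rw [hρe, hρe]
    have e : t ^ (-(e0 * θ / 4)) * r ^ (e0 * θ / 4) *
        (t ^ (-(-((6 * A - 2) * θ))) * r ^ (-((6 * A - 2) * θ))) =
        (t ^ (-(e0 * θ / 4)) * t ^ (-(-((6 * A - 2) * θ)))) *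
          (r ^ (e0 * θ / 4) * r ^ (-((6 * A - 2) * θ))) := by ring
    rw [e, ← Real.rpow_add ht, ← Real.rpow_add hr0]
    have hx : e0 * θ / 2 ≤ -(e0 * θ / 4) + -(-((6 * A - 2) * θ)) := by nlinarith
    refine mul_le_mul ?_ ?_ (by positivity) (by positivity)
    · exact Real.rpow_le_rpow_of_exponent_ge ht ht1 hx
    · exact Real.rpow_le_rpow_of_exponent_le hr (by linarith)
  calc C * (r / t) ^ (e0 * θ / 4) * (E 0 ^ θ + (r / t) ^ (-((6 * A - 2) * θ)))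
      = C * ((r / t) ^ (e0 * θ / 4) * E 0 ^ θ +
          (r / t) ^ (e0 * θ / 4) * (r / t) ^ (-((6 * A - 2) * θ))) := by ring
    _ ≤ C * (Lc ^ θ * (t ^ (e0 * θ / 2) * r ^ (-(e0 * θ / 2))) +
          t ^ (e0 * θ / 2) * r ^ (-(e0 * θ / 2))) :=
        mul_le_mul_of_nonneg_left (add_le_add m1 m2) hC
    _ = _ := by ring

end Vale.Agent.P141.H582
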